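import Mathlib

/-!
# P057, row (B): a half of the residue classes meets every non-constant polynomial sequence
-/

set_option linter.all false

section

open Finset Polynomial

namespace Vale.Agent.P057.H596


/-- Newton form on an initial segment -/
theorem newton (d L : ℕ) (A : ℕ → ℤ) (hA : ∀ s, s + d < L → (fwdDiff 1)^[d] A s = 0) (s : ℕ)
    (hs : s < L) : A s = ∑ j ∈ range d, (s.choose j : ℤ) * (fwdDiff 1)^[j] A 0 := by
  have h1 := shift_eq_sum_fwdDiff_iter 1 A s 0
  simp only [smul_eq_mul, mul_one, zero_add, nsmul_eq_mul] at h1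
  rw [h1]
  have hz : ∀ j, d ≤ j → ∀ t, t + j < L → (fwdDiff 1)^[j] A t = 0 := by
    intro j hj
    induction j, hj using Nat.le_induction with
    | base => exact hA
    | succ j hj ih =>
      intro t ht
      rw [Function.iterate_succ_apply', fwdDiff, ih t (by omega), ih (t + 1) (by omega), sub_zero]
  rcases le_total (s + 1) d with h | h
  · symm
    rw [← Finset.sum_subset (Finset.range_mono h)]
    intro j _ hj
    rw [Finset.mem_range, not_lt] at hj
    rw [Nat.choose_eq_zero_of_lt (by omega)]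
    simp
  · symm
    apply Finset.sum_subset (Finset.range_mono h)
    intro j hj1 hj
    rw [Finset.mem_range] at hj1
    rw [Finset.mem_range, not_lt] at hj
    rw [hz j hj 0 (by omega), mul_zero]

/-- the polynomial over the rationals -/
theorem newton_poly (d : ℕ) (a : ℕ → ℤ) : ∃ P : ℚ[X], P.degree < d ∧
    ∀ s : ℕ, P.eval (s : ℚ) = ((∑ j ∈ range d, (s.choose j : ℤ) * a j : ℤ) : ℚ) := by
  refine ⟨∑ j ∈ range d, C ((a j : ℚ) / (j.factorial : ℚ)) * descPochhammer ℚ j, ?_, ?_⟩
  · rw [← Polynomial.mem_degreeLT]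
    apply Submodule.sum_mem
    intro j hj
    rw [Polynomial.mem_degreeLT]
    refine (Polynomial.degree_mul_le _ _).trans_lt ?_
    have h1 : (descPochhammer ℚ j).degree = (j : WithBot ℕ) := by
      rw [Polynomial.degree_eq_natDegree (monic_descPochhammer ℚ j).ne_zero,
        descPochhammer_natDegree]
    have h2 : (C ((a j : ℚ) / (j.factorial : ℚ))).degree + (descPochhammer ℚ j).degree ≤
        (j : WithBot ℕ) := by
      rw [h1]
      calc (C ((a j : ℚ) / (j.factorial : ℚ))).degree + (j : WithBot ℕ)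
          ≤ 0 + (j : WithBot ℕ) := add_le_add Polynomial.degree_C_le le_rfl
        _ = (j : WithBot ℕ) := zero_add _
    exact h2.trans_lt (by exact_mod_cast Finset.mem_range.1 hj)
  · intro s
    rw [Polynomial.eval_finset_sum]
    push_cast
    apply Finset.sum_congr rfl
    intro j _
    rw [Polynomial.eval_mul, Polynomial.eval_C, descPochhammer_eval_eq_descFactorial,
      Nat.descFactorial_eq_factorial_mul_choose]
    have : (j.factorial : ℚ) ≠ 0 := by exact_mod_cast j.factorial_ne_zero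
    push_cast
    field_simp

/-- cancellation of a small integer -/
theorem dvd_of_small (M' w : ℕ) (D x : ℤ) (hD : D ≠ 0) (hw : D.natAbs < 2 ^ w)
    (h : ((M' ^ (w + 1) : ℕ) : ℤ) ∣ D * x) : (M' : ℤ) ∣ x := by
  have h1 : M' ^ (w + 1) ∣ D.natAbs * x.natAbs := by
    rw [← Int.natAbs_mul]
    exact Int.natCast_dvd.1 h
  rw [Int.natCast_dvd]
  by_cases hx : x.natAbs = 0
  · rw [hx]
    exact dvd_zero _
  have hD' : D.natAbs ≠ 0 := Int.natAbs_ne_zero.2 hD
  rw [Nat.dvd_iff_prime_pow_dvd_dvd]
  intro l k hl hk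
  rw [hl.pow_dvd_iff_le_factorization hx]
  by_contra hlt
  push Not at hlt
  have h2 : l ^ (k * (w + 1)) ∣ D.natAbs * x.natAbs := by
    rw [pow_mul]
    exact (pow_dvd_pow_of_dvd hk _).trans h1
  rw [hl.pow_dvd_iff_le_factorization (mul_ne_zero hD' hx), Nat.factorization_mul hD' hx,
    Finsupp.add_apply] at h2
  have h3 : l ^ (D.natAbs.factorization l) ∣ D.natAbs := Nat.ordProj_dvd _ _
  have h4 : l ^ (D.natAbs.factorization l) ≤ D.natAbs := Nat.le_of_dvd (Nat.pos_of_ne_zero hD') h3
  have h5 : 2 ^ (D.natAbs.factorization l) ≤ l ^ (D.natAbs.factorization l) :=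
    Nat.pow_le_pow_left hl.two_le _
  have h6 : D.natAbs.factorization l < w :=
    (Nat.pow_lt_pow_iff_right (by norm_num : 1 < 2)).1 (by omega)
  have h7 : k * (w + 1) = k * w + k := by ring
  have h8 : w ≤ k * w := Nat.le_mul_of_pos_left w (by omega)
  omega



/-- the denominators of Lagrange interpolation on `S` -/
def den (S : Finset ℕ) : ℤ := ∏ i ∈ S, ∏ j ∈ S.erase i, ((i : ℤ) - j)

theorem den_ne_zero (S : Finset ℕ) : den S ≠ 0 := by
  unfold den
  rw [Finset.prod_ne_zero_iff]
  intro i _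
  rw [Finset.prod_ne_zero_iff]
  intro j hj h
  exact (Finset.mem_erase.1 hj).1 (by omega)

theorem den_le (S : Finset ℕ) (L d : ℕ) (hS : S ⊆ range L) (hL : 1 ≤ L) (hc : S.card = d) :
    (den S).natAbs ≤ L ^ (d * d) := by
  have h0 : (den S).natAbs = ∏ i ∈ S, ∏ j ∈ S.erase i, ((i : ℤ) - j).natAbs := by
    unfold den
    rw [← Int.natAbsHom_apply, map_prod]
    apply Finset.prod_congr rfl
    intro i _
    rw [map_prod]
    rfl
  rw [h0]
  calc ∏ i ∈ S, ∏ j ∈ S.erase i, ((i : ℤ) - j).natAbs ≤ ∏ i ∈ S, L ^ d := by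
        apply Finset.prod_le_prod' 
        intro i hi
        calc ∏ j ∈ S.erase i, ((i : ℤ) - j).natAbs ≤ ∏ j ∈ S.erase i, L := by
              apply Finset.prod_le_prod'
              intro j hj
              have h1 := Finset.mem_range.1 (hS hi)
              have h2 := Finset.mem_range.1 (hS (Finset.mem_of_mem_erase hj))
              omega
          _ = L ^ (S.erase i).card := by rw [Finset.prod_const]
          _ ≤ L ^ d := Nat.pow_le_pow_right hL (by
              rw [← hc]; exact Finset.card_le_card (Finset.erase_subset _ _))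
    _ = L ^ (d * d) := by rw [Finset.prod_const, hc, ← pow_mul]

/-- a polynomial which is divisible by `M` on `S` -/
theorem lagrange_dvd (P : ℚ[X]) (B : ℕ → ℤ) (hB : ∀ s : ℕ, P.eval (s : ℚ) = (B s : ℚ)) (S : Finset ℕ)
    (hdeg : P.degree < (S.card : WithBot ℕ)) (M : ℤ) (hM : ∀ i ∈ S, M ∣ B i) (x : ℕ) :
    M ∣ den S * B x := by
  classical
  have hinj : Set.InjOn (fun i : ℕ => (i : ℚ)) S := Nat.cast_injective.injOn
  have h1 := Lagrange.eq_interpolate hinj hdeg
  have h2 : (B x : ℚ) = ∑ i ∈ S, (B i : ℚ) * ∏ j ∈ S.erase i, (((x : ℚ) - j) / ((i : ℚ) - j)) := by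
    rw [← hB x, h1, Lagrange.interpolate_apply, Polynomial.eval_finset_sum]
    apply Finset.sum_congr rfl
    intro i hi
    rw [Polynomial.eval_mul, Polynomial.eval_C, hB i]
    congr 1
    rw [Lagrange.basis, Polynomial.eval_prod]
    apply Finset.prod_congr rfl
    intro j _
    rw [Lagrange.basisDivisor]
    simp only [Polynomial.eval_mul, Polynomial.eval_C, Polynomial.eval_sub, Polynomial.eval_X]
    rw [div_eq_inv_mul]
  have h3 : den S * B x = ∑ i ∈ S, B i * ((∏ j ∈ S.erase i, ((x : ℤ) - j)) *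
      ∏ i' ∈ S.erase i, ∏ j ∈ S.erase i', ((i' : ℤ) - j)) := by
    have : ((den S * B x : ℤ) : ℚ) = ((∑ i ∈ S, B i * ((∏ j ∈ S.erase i, ((x : ℤ) - j)) *
      ∏ i' ∈ S.erase i, ∏ j ∈ S.erase i', ((i' : ℤ) - j)) : ℤ) : ℚ) := by
      push_cast
      rw [h2, Finset.mul_sum]
      apply Finset.sum_congr rfl
      intro i hi
      unfold den
      rw [← Finset.mul_prod_erase S _ hi, Finset.prod_div_distrib]
      push_cast
      have hne : (∏ j ∈ S.erase i, ((i : ℚ) - j)) ≠ 0 := by
        rw [Finset.prod_ne_zero_iff]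
        intro j hj h
        apply (Finset.mem_erase.1 hj).1
        have : (i : ℚ) = j := by linarith only [h]
        exact_mod_cast this.symm
      field_simp
    exact_mod_cast this
  rw [h3]
  apply Finset.dvd_sum
  intro i hi
  exact Dvd.dvd.mul_right (hM i hi) _



/-- half of the subsets are small -/
theorem small_half (M : ℕ) [NeZero M] :
    2 ^ M ≤ 2 * ((Finset.univ : Finset (Finset (ZMod M))).filter
      (fun R => 2 * R.card ≤ M)).card := by
  classical
  have h1 : (Finset.univ : Finset (Finset (ZMod M))) ⊆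
      (Finset.univ.filter (fun R : Finset (ZMod M) => 2 * R.card ≤ M)) ∪
      (Finset.univ.filter (fun R : Finset (ZMod M) => 2 * R.card ≤ M)).image (fun R => Rᶜ) := by
    intro R _
    rw [Finset.mem_union]
    by_cases h : 2 * R.card ≤ M
    · left
      exact Finset.mem_filter.2 ⟨Finset.mem_univ _, h⟩
    · right
      refine Finset.mem_image.2 ⟨Rᶜ, Finset.mem_filter.2 ⟨Finset.mem_univ _, ?_⟩, compl_compl R⟩
      rw [Finset.card_compl, ZMod.card]
      omega
  have h2 := (Finset.card_le_card h1).trans (Finset.card_union_le _ _)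
  have h3 : (Finset.univ : Finset (Finset (ZMod M))).card = 2 ^ M := by
    rw [Finset.card_univ, Fintype.card_finset, ZMod.card]
  have h4 := Finset.card_image_le (s := Finset.univ.filter
    (fun R : Finset (ZMod M) => 2 * R.card ≤ M)) (f := fun R => Rᶜ)
  omega

/-- counting: a small set which meets every large member of a family -/
theorem exists_meet {ι : Type*} [Fintype ι] (M m : ℕ) [NeZero M] (V : ι → Finset (ZMod M))
    (h : Fintype.card ι * 2 < 2 ^ m) :
    ∃ R : Finset (ZMod M), 2 * R.card ≤ M ∧ ∀ a, m ≤ (V a).card → ¬ Disjoint R (V a) := by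
  classical
  by_contra hcon
  push Not at hcon
  have hcov : Finset.univ.filter (fun R : Finset (ZMod M) => 2 * R.card ≤ M) ⊆
      (Finset.univ.filter (fun a : ι => m ≤ (V a).card)).biUnion
        (fun a => ((V a)ᶜ).powerset) := by
    intro R hR
    obtain ⟨a, ha, hd⟩ := hcon R (Finset.mem_filter.1 hR).2
    rw [Finset.mem_biUnion]
    refine ⟨a, Finset.mem_filter.2 ⟨Finset.mem_univ _, ha⟩, ?_⟩
    rw [Finset.mem_powerset]
    intro x hx
    rw [Finset.mem_compl]
    intro hx'
    exact (Finset.disjoint_left.1 hd hx) hx'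
  have h1 := (Finset.card_le_card hcov).trans Finset.card_biUnion_le
  have h2 : ∑ a ∈ Finset.univ.filter (fun a : ι => m ≤ (V a).card), (((V a)ᶜ).powerset).card ≤
      Fintype.card ι * 2 ^ (M - m) := by
    calc ∑ a ∈ Finset.univ.filter (fun a : ι => m ≤ (V a).card), (((V a)ᶜ).powerset).card
        ≤ ∑ a ∈ Finset.univ.filter (fun a : ι => m ≤ (V a).card), 2 ^ (M - m) := by
          apply Finset.sum_le_sum
          intro a ha
          rw [Finset.card_powerset, Finset.card_compl, ZMod.card]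
          apply Nat.pow_le_pow_right (by norm_num)
          have := (Finset.mem_filter.1 ha).2
          omega
      _ = (Finset.univ.filter (fun a : ι => m ≤ (V a).card)).card * 2 ^ (M - m) := by
          rw [Finset.sum_const, smul_eq_mul]
      _ ≤ Fintype.card ι * 2 ^ (M - m) := by
          apply Nat.mul_le_mul_right
          exact (Finset.card_filter_le _ _).trans (by rw [Finset.card_univ])
  have h3 := small_half M
  rcases le_or_gt m M with hm | hm
  · have h4 : 2 ^ M = 2 ^ m * 2 ^ (M - m) := by rw [← pow_add, Nat.add_sub_cancel' hm]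
    have h5 : 0 < 2 ^ (M - m) := by positivity
    have h6 : Fintype.card ι * 2 * 2 ^ (M - m) < 2 ^ m * 2 ^ (M - m) :=
      Nat.mul_lt_mul_of_pos_right h h5
    rw [h4] at h3
    have h7 := h1.trans h2
    nlinarith only [h3, h6, h7]
  · have h4 : Finset.univ.filter (fun a : ι => m ≤ (V a).card) = ∅ := by
      rw [Finset.filter_eq_empty_iff]
      intro a _ ha
      have := Finset.card_le_univ (V a)
      rw [ZMod.card] at this
      omega
    rw [h4] at h1
    simp only [Finset.sum_empty] at h1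
    have h5 : 0 < 2 ^ M := by positivity
    omega

/-- the numerics -/
theorem numerics (d M' L w m : ℕ) (hd : 1 ≤ d) (hM : 2 ≤ M') (hdL : d < L)
    (hw : L ^ (d*d) < 2 ^ w) (hL : 2 * (d:ℝ)^2 * ((w+1) * Real.log M') < L) (hm : L ≤ d * m) :
    (M' ^ (w + 1)) ^ d * 2 < 2 ^ m := by
  have hw2 : 2 ≤ w := by
    by_contra hlt
    have h1 : 2 ^ w ≤ 2 ^ 1 := Nat.pow_le_pow_right (by norm_num) (by omega)
    have h2 : L ^ 1 ≤ L ^ (d * d) := Nat.pow_le_pow_right (by omega) (Nat.mul_pos hd hd)
    rw [pow_one] at h1 h2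
    omega
  have hdR : (1 : ℝ) ≤ d := by exact_mod_cast hd
  have hmR : (L : ℝ) ≤ d * m := by exact_mod_cast hm
  have hlogM : Real.log 2 ≤ Real.log M' := Real.log_le_log (by norm_num) (by exact_mod_cast hM)
  have hlog2 : (0.6931471803 : ℝ) < Real.log 2 := Real.log_two_gt_d9
  have h1 : 2 * (d : ℝ) * ((w + 1) * Real.log M') < m := by
    have h2 : (d : ℝ) * (2 * (d : ℝ) * ((w + 1) * Real.log M')) < d * m := by
      calc (d : ℝ) * (2 * (d : ℝ) * ((w + 1) * Real.log M'))
          = 2 * (d:ℝ)^2 * ((w+1) * Real.log M') := by ring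
        _ < L := hL
        _ ≤ d * m := hmR
    exact lt_of_mul_lt_mul_left h2 (by linarith)
  have h3 : (3 : ℝ) * Real.log 2 ≤ (w + 1) * Real.log M' := by
    have hwR : (2 : ℝ) ≤ w := by exact_mod_cast hw2
    apply mul_le_mul (by linarith) hlogM (by linarith) (by linarith)
  have h4 : (d : ℝ) * ((w + 1) * Real.log M') + Real.log 2 < m * Real.log 2 := by
    set X : ℝ := (w + 1) * Real.log M' with hX
    have h5 : X ≤ d * X := by nlinarith only [hdR, h3, hlog2]
    nlinarith only [h1, h3, h5, hlog2]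
  have hM0 : (0 : ℝ) < (M' : ℝ) := by
    have : 0 < M' := by omega
    exact_mod_cast this
  have h6 : (((M' ^ (w + 1)) ^ d * 2 : ℕ) : ℝ) < ((2 ^ m : ℕ) : ℝ) := by
    push_cast
    rw [← Real.log_lt_log_iff (by positivity) (by positivity), Real.log_mul (by positivity)
      (by norm_num), Real.log_pow, Real.log_pow, Real.log_pow]
    push_cast
    exact h4
  exact_mod_cast h6


/-- the values modulo `M` of an integral polynomial given by its Newton coefficients -/
def seq (M d : ℕ) (a : Fin d → ZMod M) (s : ℕ) : ZMod M := ∑ j : Fin d, ((s.choose j : ℕ) : ZMod M) * a j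

/-- row (B): a half of the classes meets every polynomial sequence of degree `< d` which is not
constant modulo `M'` -/
theorem hit_poly (d M' L w : ℕ) (hd : 1 ≤ d) (hM : 2 ≤ M') (hdL : d < L) (hw : L ^ (d*d) < 2 ^ w)
    (hL : 2 * (d:ℝ)^2 * ((w+1) * Real.log M') < L) :
    ∃ R : Finset (ZMod (M' ^ (w+1))), 2 * R.card ≤ M' ^ (w+1) ∧
      ∀ A : ℕ → ℤ, (∀ s, s + d < L → (fwdDiff 1)^[d] A s = 0) →
        (∀ s < L, ((A s : ℤ) : ZMod (M' ^ (w+1))) ∉ R) → ∀ s < L, (M':ℤ) ∣ A s - A 0 := by
  classical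
  have hM0 : 0 < M' ^ (w + 1) := Nat.pow_pos (by omega)
  haveI : NeZero (M' ^ (w + 1)) := ⟨hM0.ne'⟩
  set m : ℕ := (L + d - 1) / d with hm
  have hm1 : L ≤ d * m := by
    have h1 := Nat.div_add_mod (L + d - 1) d
    have h2 := Nat.mod_lt (L + d - 1) (by omega : d > 0)
    rw [← hm] at h1
    omega
  have hm2 : ∀ c, L ≤ d * c → m ≤ c := by
    intro c hc
    have h1 : (L + d - 1) / d < c + 1 := by
      apply Nat.div_lt_of_lt_mul
      have : d * (c + 1) = d * c + d := by ring
      omega
    omega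
  obtain ⟨R, hR1, hR2⟩ := exists_meet (M' ^ (w + 1)) m
    (fun a : Fin d → ZMod (M' ^ (w + 1)) => (range L).image (seq (M' ^ (w + 1)) d a)) (by
      rw [Fintype.card_fun, ZMod.card, Fintype.card_fin]
      exact numerics d M' L w m hd hM hdL hw hL hm1)
  refine ⟨R, hR1, ?_⟩
  intro A hA hav
  set a : Fin d → ZMod (M' ^ (w + 1)) := fun j => (((fwdDiff 1)^[j] A 0 : ℤ) : ZMod (M' ^ (w + 1)))
    with ha
  have hseq : ∀ s < L, ((A s : ℤ) : ZMod (M' ^ (w+1))) = seq (M' ^ (w + 1)) d a s := by
    intro s hs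
    rw [newton d L A hA s hs, seq, Finset.sum_range]
    push_cast
    rfl
  have hcard : d * ((range L).image (seq (M' ^ (w + 1)) d a)).card < L := by
    by_contra hle
    push Not at hle
    have h1 := hR2 a (hm2 _ hle)
    apply h1
    rw [Finset.disjoint_left]
    intro x hx hx'
    obtain ⟨s, hs, rfl⟩ := Finset.mem_image.1 hx'
    have hs' := Finset.mem_range.1 hs
    apply hav s hs'
    rw [hseq s hs']
    exact hx
  obtain ⟨y, _, hy2⟩ := Finset.exists_lt_card_fiber_of_mul_lt_card_of_maps_to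
    (s := range L) (t := (range L).image (seq (M' ^ (w + 1)) d a)) (f := seq (M' ^ (w + 1)) d a)
    (n := d) (fun s hs => Finset.mem_image_of_mem _ hs) (by
      rw [Finset.card_range, mul_comm]
      exact hcard)
  obtain ⟨S, hS1, hS2⟩ := Finset.exists_subset_card_eq hy2.le
  have hSL : S ⊆ range L := fun i hi => (Finset.mem_filter.1 (hS1 hi)).1
  have hSy : ∀ i ∈ S, seq (M' ^ (w + 1)) d a i = y := fun i hi => (Finset.mem_filter.1 (hS1 hi)).2
  obtain ⟨s0, hs0⟩ : S.Nonempty := Finset.card_pos.1 (by omega)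
  have hs0L := Finset.mem_range.1 (hSL hs0)
  obtain ⟨P, hP1, hP2⟩ := newton_poly d (fun j => (fwdDiff 1)^[j] A 0)
  set B : ℕ → ℤ := fun s => (∑ j ∈ range d, (s.choose j : ℤ) * (fwdDiff 1)^[j] A 0) - A s0 with hB
  have hBs : ∀ s < L, B s = A s - A s0 := by
    intro s hs
    rw [hB]
    show (∑ j ∈ range d, (s.choose j : ℤ) * (fwdDiff 1)^[j] A 0) - A s0 = _
    rw [← newton d L A hA s hs]
  have hPB : ∀ s : ℕ, (P - C ((A s0 : ℤ) : ℚ)).eval (s : ℚ) = (B s : ℚ) := by
    intro s
    rw [Polynomial.eval_sub, Polynomial.eval_C, hP2 s, hB]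
    push_cast
    rfl
  have hPd : (P - C ((A s0 : ℤ) : ℚ)).degree < (S.card : WithBot ℕ) := by
    rw [hS2]
    refine (Polynomial.degree_sub_le _ _).trans_lt ?_
    rw [max_lt_iff]
    refine ⟨hP1, Polynomial.degree_C_le.trans_lt ?_⟩
    have : 0 < d := by omega
    exact_mod_cast this
  have hkey : ∀ x < L, (M' : ℤ) ∣ A x - A s0 := by
    intro x hx
    rw [← hBs x hx]
    apply dvd_of_small M' w (den S) (B x) (den_ne_zero S)
      ((den_le S L d hSL (by omega) hS2).trans_lt hw)
    apply lagrange_dvd (P - C ((A s0 : ℤ) : ℚ)) B hPB S hPd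
    intro i hi
    have hiL := Finset.mem_range.1 (hSL hi)
    rw [hBs i hiL, ← ZMod.intCast_eq_intCast_iff_dvd_sub, hseq i hiL, hseq s0 hs0L, hSy i hi,
      hSy s0 hs0]
  intro s hs
  have h1 := hkey s hs
  have h2 := hkey 0 (by omega)
  have h3 : A s - A 0 = (A s - A s0) - (A 0 - A s0) := by ring
  rw [h3]
  exact dvd_sub h1 h2

end Vale.Agent.P057.H596

end
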